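import Claimed.Agent.R309.Defs

/-!
# Row 309: `Dim1` / `Cech0` with arbitrary finite index types (helper209; sorry free)

`Dim1` and `Cech0` (see `Defs.lean`) are stated with covers indexed by `Fin n`.  The four lemmas below allow
any `Fintype` as index type, both when the properties are USED and when they are PROVED.
-/

set_option autoImplicit false

namespace Claimed.Agent.R309

open Set

/-- use `Dim1` on a cover indexed by a finite type; the refinement comes with a parent map `r` -/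
theorem Dim1.fintype {L : Type} [TopologicalSpace L] (h : Dim1 L) {κ : Type} [Fintype κ]
    (U : κ → Set L) (hU : ∀ i, IsOpen (U i)) (hc : (⋃ i, U i) = univ) :
    ∃ (m : ℕ) (Z : Fin m → Set L) (r : Fin m → κ), (∀ a, IsOpen (Z a)) ∧ (⋃ a, Z a) = univ ∧
      (∀ a, Z a ⊆ U (r a)) ∧ ∀ a b c : Fin m, a ≠ b → b ≠ c → a ≠ c → Z a ∩ Z b ∩ Z c = ∅ := by
  classical
  let e := Fintype.equivFin κ
  obtain ⟨m, Z, hZo, hZc, hZr, hZ3⟩ := h (Fintype.card κ) (fun i => U (e.symm i)) (fun i => hU _)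
    (by rw [← hc]; exact e.symm.surjective.iUnion_comp U)
  choose r hr using hZr
  exact ⟨m, Z, fun a => e.symm (r a), hZo, hZc, hr, hZ3⟩

/-- use `Cech0` on a cover indexed by a finite type -/
theorem Cech0.fintype {L : Type} [TopologicalSpace L] (h : Cech0 L) {κ : Type} [Fintype κ]
    (U : κ → Set L) (d : κ → κ → ZMod 2) (hU : ∀ i, IsOpen (U i)) (hc : (⋃ i, U i) = univ)
    (h0 : ∀ i, d i i = 0) (hs : ∀ i j, d i j = d j i)
    (h3 : ∀ i j k, (U i ∩ U j ∩ U k).Nonempty → d i j + d j k + d i k = 0) :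
    ∃ (m : ℕ) (Z : Fin m → Set L) (r : Fin m → κ) (c : Fin m → ZMod 2),
      (∀ a, IsOpen (Z a)) ∧ (⋃ a, Z a) = univ ∧ (∀ a, Z a ⊆ U (r a)) ∧
      ∀ a b, (Z a ∩ Z b).Nonempty → c a + c b = d (r a) (r b) := by
  classical
  let e := Fintype.equivFin κ
  obtain ⟨m, Z, r, c, hZo, hZc, hZr, hZd⟩ := h (Fintype.card κ) (fun i => U (e.symm i))
    (fun i j => d (e.symm i) (e.symm j)) (fun i => hU _)
    (by rw [← hc]; exact e.symm.surjective.iUnion_comp U)
    (fun i => h0 _) (fun i j => hs _ _) (fun i j k hijk => h3 _ _ _ hijk)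
  exact ⟨m, Z, fun a => e.symm (r a), c, hZo, hZc, hZr, hZd⟩

/-- prove `Dim1` with refinements indexed by finite types -/
theorem dim1_of_fintype {L : Type} [TopologicalSpace L]
    (h : ∀ (n : ℕ) (U : Fin n → Set L), (∀ i, IsOpen (U i)) → (⋃ i, U i) = univ →
      ∃ (κ : Type) (_ : Fintype κ) (Z : κ → Set L), (∀ a, IsOpen (Z a)) ∧ (⋃ a, Z a) = univ ∧
        (∀ a, ∃ i, Z a ⊆ U i) ∧ ∀ a b c : κ, a ≠ b → b ≠ c → a ≠ c → Z a ∩ Z b ∩ Z c = ∅) :
    Dim1 L := by
  classical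
  intro n U hU hc
  obtain ⟨κ, _, Z, hZo, hZc, hZr, hZ3⟩ := h n U hU hc
  let e := Fintype.equivFin κ
  refine ⟨Fintype.card κ, fun a => Z (e.symm a), fun a => hZo _, ?_, fun a => hZr _, ?_⟩
  · rw [← hZc]; exact e.symm.surjective.iUnion_comp Z
  · intro a b c hab hbc hac
    exact hZ3 _ _ _ (fun h => hab (e.symm.injective h)) (fun h => hbc (e.symm.injective h))
      (fun h => hac (e.symm.injective h))

/-- prove `Cech0` with refinements indexed by finite types -/
theorem cech0_of_fintype {L : Type} [TopologicalSpace L]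
    (h : ∀ (n : ℕ) (U : Fin n → Set L) (d : Fin n → Fin n → ZMod 2),
      (∀ i, IsOpen (U i)) → (⋃ i, U i) = univ →
      (∀ i, d i i = 0) → (∀ i j, d i j = d j i) →
      (∀ i j k, (U i ∩ U j ∩ U k).Nonempty → d i j + d j k + d i k = 0) →
      ∃ (κ : Type) (_ : Fintype κ) (Z : κ → Set L) (r : κ → Fin n) (c : κ → ZMod 2),
        (∀ a, IsOpen (Z a)) ∧ (⋃ a, Z a) = univ ∧ (∀ a, Z a ⊆ U (r a)) ∧
        ∀ a b, (Z a ∩ Z b).Nonempty → c a + c b = d (r a) (r b)) :
    Cech0 L := by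
  classical
  intro n U d hU hc h0 hs h3
  obtain ⟨κ, _, Z, r, c, hZo, hZc, hZr, hZd⟩ := h n U d hU hc h0 hs h3
  let e := Fintype.equivFin κ
  refine ⟨Fintype.card κ, fun a => Z (e.symm a), fun a => r (e.symm a), fun a => c (e.symm a),
    fun a => hZo _, ?_, fun a => hZr _, fun a b hab => hZd _ _ hab⟩
  rw [← hZc]; exact e.symm.surjective.iUnion_comp Z

end Claimed.Agent.R309
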