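import Claimed.Agent.R309.Defs
import Claimed.Agent.R309.S6.Coh

/-!
# Row 309: glue `GroupHyp 𝔖 → S6.CohHyp 𝔖.S`  (owner helper29, sorry free)
-/

set_option autoImplicit false

namespace Claimed.Agent.R309

open Set

variable {Γ : Type} [Group Γ] {𝔖 : GenSet Γ}

theorem glueCoh_zmod2_sub (a b : ZMod 2) : a - b = a + b := by
  revert a b; decide

theorem cohHyp_of_groupHyp (h : GroupHyp 𝔖) : S6.CohHyp 𝔖.S where
  inf := h.inf
  tf := h.torsionFree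
  gen := 𝔖.closure_eq
  sc2 := by
    intro c hc
    obtain ⟨φ, hφ⟩ := h.sc_two (fun e : 𝔖.Edge => c e.1 e.2.1) (by
      intro g s₁ s₂ h12
      have := hc g s₁.1 s₂.1 s₁.2 s₂.2 h12
      simp only [S6.dTri] at this
      have h2 : ∀ a b d : ZMod 2, a + b + d = 0 → a + b = d := by decide
      exact h2 _ _ _ this)
    refine ⟨φ, fun g s hs => ?_⟩
    have := hφ (g, ⟨s, hs⟩)
    simp only [grad, etgt, esrc] at this
    rw [this, glueCoh_zmod2_sub]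
  oneEnded := by
    intro W hW
    apply h.oneEnded W
    have : {e : 𝔖.Edge | esrc e ∈ W ∧ etgt e ∉ W} ⊆
        {g | g ∈ W ∧ ∃ s ∈ 𝔖.S, g * s ∉ W} ×ˢ (univ : Set {s : Γ // s ∈ 𝔖.S}) := by
      rintro ⟨g, s⟩ ⟨h1, h2⟩
      exact ⟨⟨h1, s.1, s.2, h2⟩, mem_univ _⟩
    exact (hW.prod finite_univ).subset this
  h2c := by
    intro α hα
    classical
    obtain ⟨η, hηf, hη⟩ := h.h2c (fun e : 𝔖.Edge => α e.1 e.2.1) (by
      have : {t : 𝔖.Tri | cobd (fun e : 𝔖.Edge => α e.1 e.2.1) t ≠ 0} ⊆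
          (fun t : 𝔖.Tri => t.1) ⁻¹'
            ({g | ∃ s₁ ∈ 𝔖.S, ∃ s₂ ∈ 𝔖.S, s₁ * s₂ ∈ 𝔖.S ∧ S6.dTri α g s₁ s₂ ≠ 0} ×ˢ
              (univ : Set ({s : Γ // s ∈ 𝔖.S} × {s : Γ // s ∈ 𝔖.S}))) := by
        rintro ⟨⟨g, s₁, s₂⟩, h12⟩ ht
        refine ⟨⟨s₁.1, s₁.2, s₂.1, s₂.2, h12, ?_⟩, mem_univ _⟩
        simp only [cobd, mem_setOf_eq, glueCoh_zmod2_sub] at ht
        exact ht
      exact ((hα.prod finite_univ).preimage (Subtype.val_injective.injOn)).subset this)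
    refine ⟨fun g s => if hs : s ∈ 𝔖.S then η (g, ⟨s, hs⟩) else 0, ?_, ?_⟩
    · have : {g | ∃ s ∈ 𝔖.S, (if hs : s ∈ 𝔖.S then η (g, ⟨s, hs⟩) else 0) ≠ 0} ⊆
          Prod.fst '' Function.support η := by
        rintro g ⟨s, hs, hne⟩
        rw [dif_pos hs] at hne
        exact ⟨(g, ⟨s, hs⟩), hne, rfl⟩
      exact (hηf.image _).subset this
    · intro g s₁ s₂ h1 h2 h12
      have := hη ⟨(g, ⟨s₁, h1⟩, ⟨s₂, h2⟩), h12⟩
      simp only [cobd, glueCoh_zmod2_sub] at this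
      simp only [S6.dTri, dif_pos h1, dif_pos h2, dif_pos h12]
      exact this

end Claimed.Agent.R309
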