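import Claimed.Agent.R309.Defs

/-!
# Row 309, S10 (Sec 10 of the paper, `conclusion.tex`): the continuum contradiction.  Owner helper29.  Prefix `s10_`.

ARC-FREE proof of Lemma 10.3 (`end:continuum`): a nondegenerate locally connected compact Hausdorff continuum `L` with
`Dim1 L` and `Cech0 L` has a cut point.
* `s10_cech0_closed` (Lemma 10.1, `end:restriction`): `Cech0` passes to closed subsets when `Dim1 L`.
* `s10_inter_preconnected`: the intersection of two closed connected sets is connected (Mayer-Vietoris by hand on the 4-set cover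
  `A \ K₂, A \ K₁, O, O'` of `A = K₁ ∪ K₂`).
* `s10_core_preconnected`: the intersection `I` of all closed connected sets containing `a, b` is connected.
* `s10_exists_cut`: a point `p ∈ I \ {a,b}` is a cut point: otherwise `a, b` lie in a closed connected subset of `{p}ᶜ`.
-/

set_option autoImplicit false

namespace Claimed.Agent.R309

open Filter Topology Set

/-- **Lemma 10.1.** -/
theorem s10_cech0_closed {L : Type} [TopologicalSpace L] (A : Set L) (hA : IsClosed A)
    (hd : Dim1 L) (hc : Cech0 L) : Cech0 A := by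
  classical
  intro n V d hV hcov hd0 hds hdc
  rcases Nat.eq_zero_or_pos n with hn | hn
  · subst hn
    refine ⟨0, fun a => a.elim0, fun a => a.elim0, fun a => a.elim0, fun a => a.elim0, ?_,
      fun a => a.elim0, fun a => a.elim0⟩
    rw [← hcov]
    simp
  have hV' : ∀ i, ∃ W : Set L, IsOpen W ∧ Subtype.val ⁻¹' W = V i := fun i =>
    isOpen_induced_iff.mp (hV i)
  choose W hWo hWV using hV'
  obtain ⟨m, Y, hY, hYcov, hYU, hY3⟩ := hd (n + 1) (Fin.cons Aᶜ W)
    (by
      intro i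
      refine Fin.cases ?_ (fun j => ?_) i
      · simpa using hA.isOpen_compl
      · simpa using hWo j)
    (by
      rw [eq_univ_iff_forall]
      intro x
      rw [mem_iUnion]
      by_cases hx : x ∈ A
      · have : (⟨x, hx⟩ : A) ∈ ⋃ i, V i := by rw [hcov]; trivial
        obtain ⟨i, hi⟩ := mem_iUnion.mp this
        refine ⟨i.succ, ?_⟩
        rw [Fin.cons_succ]
        rw [← hWV i] at hi
        exact hi
      · exact ⟨0, by simpa using hx⟩)
  -- a refinement map into `Fin n`, meaningful on the members meeting `A`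
  have hσ : ∀ α : Fin m, ∃ i : Fin n, (Y α ∩ A).Nonempty → Y α ⊆ W i := by
    intro α
    obtain ⟨i, hi⟩ := hYU α
    revert hi
    refine Fin.cases ?_ (fun j => ?_) i
    · intro hi
      refine ⟨⟨0, hn⟩, ?_⟩
      rintro ⟨x, hxY, hxA⟩
      have := hi hxY
      rw [Fin.cons_zero] at this
      exact absurd hxA this
    · intro hi
      rw [Fin.cons_succ] at hi
      exact ⟨j, fun _ => hi⟩
  choose σ hσ using hσ
  set d' : Fin m → Fin m → ZMod 2 := fun α β =>
    if α ≠ β ∧ (Y α ∩ Y β ∩ A).Nonempty then d (σ α) (σ β) else 0 with hd'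
  have hd'0 : ∀ α, d' α α = 0 := by
    intro α
    simp [hd']
  have hd's : ∀ α β, d' α β = d' β α := by
    intro α β
    simp only [hd']
    by_cases h : α ≠ β ∧ (Y α ∩ Y β ∩ A).Nonempty
    · have h' : β ≠ α ∧ (Y β ∩ Y α ∩ A).Nonempty := ⟨h.1.symm, by rw [inter_comm (Y β)]; exact h.2⟩
      rw [if_pos h, if_pos h', hds]
    · have h' : ¬ (β ≠ α ∧ (Y β ∩ Y α ∩ A).Nonempty) := fun hh =>
        h ⟨hh.1.symm, by rw [inter_comm (Y α)]; exact hh.2⟩
      rw [if_neg h, if_neg h']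
  have h2 : ∀ x : ZMod 2, x + x = 0 := by decide
  obtain ⟨m', Z, ρ, c, hZ, hZcov, hZY, hZc⟩ := hc m Y d' hY hYcov hd'0 hd's (by
    intro α β γ hne
    by_cases h1 : α = β
    · subst h1; rw [hd'0, zero_add, h2]
    by_cases h3 : β = γ
    · subst h3; rw [hd'0, add_zero, h2]
    by_cases h4 : α = γ
    · subst h4; rw [hd'0, add_zero, hd's β α, h2]
    · rw [hY3 α β γ h1 h3 h4] at hne
      exact absurd hne not_nonempty_empty)
  refine ⟨m', fun a => Subtype.val ⁻¹' Z a, fun a => σ (ρ a), c,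
    fun a => (hZ a).preimage continuous_subtype_val, ?_, ?_, ?_⟩
  · rw [← preimage_iUnion, hZcov, preimage_univ]
  · intro a x hx
    have hxY : x.1 ∈ Y (ρ a) := hZY a hx
    have := hσ (ρ a) ⟨x.1, hxY, x.2⟩ hxY
    rw [← hWV]
    exact this
  · rintro a b ⟨x, hxa, hxb⟩
    have h1 := hZc a b ⟨x.1, hxa, hxb⟩
    rw [h1]
    show d' (ρ a) (ρ b) = d (σ (ρ a)) (σ (ρ b))
    by_cases hab : ρ a = ρ b
    · rw [hab, hd'0, hd0]
    · simp only [hd']
      rw [if_pos ⟨hab, ⟨x.1, ⟨hZY a hxa, hZY b hxb⟩, x.2⟩⟩]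

/-- the cocycle on the 4-set cover -/
def s10d (i j : Fin 4) : ZMod 2 := if (i = 1 ∧ j = 3) ∨ (i = 3 ∧ j = 1) then 1 else 0

theorem s10d_cocycle : ∀ i j k : Fin 4, s10d i j + s10d j k + s10d i k = 0 ∨
    ((i = 0 ∨ j = 0 ∨ k = 0) ∧ (i = 1 ∨ j = 1 ∨ k = 1)) ∨
    ((i = 2 ∨ j = 2 ∨ k = 2) ∧ (i = 3 ∨ j = 3 ∨ k = 3)) := by
  decide

theorem s10d_one : ∀ i j : Fin 4, s10d i j ≠ 0 → i = 1 ∨ j = 1 := by decide

theorem s10d_two : ∀ i j : Fin 4, i ≠ 0 → j ≠ 0 → ¬ (i = 2 ∧ j = 3) → ¬ (i = 3 ∧ j = 2) →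
    s10d i j + (if i = 3 then 1 else 0) + (if j = 3 then 1 else 0) = 0 := by decide

/-- a locally constant labelling is constant on a preconnected set -/
theorem s10_label_const {A : Type} [TopologicalSpace A] {m : ℕ} (Z : Fin m → Set A)
    (hZ : ∀ a, IsOpen (Z a)) (hcov : (⋃ a, Z a) = univ) (c : Fin m → ZMod 2) (K : Set A)
    (hK : IsPreconnected K) (hcomp : ∀ x ∈ K, ∀ a b, x ∈ Z a → x ∈ Z b → c a = c b) :
    ∃ κ : ZMod 2, ∀ x ∈ K, ∀ a, x ∈ Z a → c a = κ := by
  classical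
  set T : ZMod 2 → Set A := fun κ => ⋃ a ∈ {a | c a = κ}, Z a with hT
  have hTo : ∀ κ, IsOpen (T κ) := fun κ => isOpen_biUnion fun a _ => hZ a
  have h01 : ∀ x : ZMod 2, x = 0 ∨ x = 1 := by decide
  have hsub : K ⊆ T 0 ∪ T 1 := by
    intro x _
    have : x ∈ ⋃ a, Z a := by rw [hcov]; trivial
    obtain ⟨a, ha⟩ := mem_iUnion.mp this
    rcases h01 (c a) with h | h
    · left; exact mem_biUnion (show a ∈ {a | c a = 0} from h) ha
    · right; exact mem_biUnion (show a ∈ {a | c a = 1} from h) ha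
  have hdisj : K ∩ (T 0 ∩ T 1) = ∅ := by
    rw [eq_empty_iff_forall_notMem]
    rintro x ⟨hxK, hx0, hx1⟩
    obtain ⟨a, ha, hxa⟩ := mem_iUnion₂.mp hx0
    obtain ⟨b, hb, hxb⟩ := mem_iUnion₂.mp hx1
    have := hcomp x hxK a b hxa hxb
    rw [show c a = 0 from ha, show c b = 1 from hb] at this
    exact absurd this (by decide)
  rcases (isPreconnected_iff_subset_of_disjoint.mp hK) (T 0) (T 1) (hTo 0) (hTo 1) hsub hdisj
    with h | h
  · refine ⟨0, fun x hx a hxa => ?_⟩
    obtain ⟨b, hb, hxb⟩ := mem_iUnion₂.mp (h hx)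
    rw [hcomp x hx a b hxa hxb]; exact hb
  · refine ⟨1, fun x hx a hxa => ?_⟩
    obtain ⟨b, hb, hxb⟩ := mem_iUnion₂.mp (h hx)
    rw [hcomp x hx a b hxa hxb]; exact hb

/-- hereditary unicoherence -/
theorem s10_inter_preconnected {L : Type} [TopologicalSpace L] [NormalSpace L]
    (hd : Dim1 L) (hc : Cech0 L) {K₁ K₂ : Set L} (h₁ : IsClosed K₁) (h₂ : IsClosed K₂)
    (c₁ : IsPreconnected K₁) (c₂ : IsPreconnected K₂) : IsPreconnected (K₁ ∩ K₂) := by
  classical
  rw [isPreconnected_closed_iff]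
  intro t t' ht ht' hsub ⟨e, he, het⟩ ⟨e', he', het'⟩
  by_contra hemp
  have hdis : Disjoint (K₁ ∩ K₂ ∩ t) (K₁ ∩ K₂ ∩ t') := by
    rw [Set.disjoint_left]
    intro x hx hx'
    exact hemp ⟨x, hx.1, hx.2, hx'.2⟩
  obtain ⟨O, O', hO, hO', hEO, hEO', hOO⟩ :=
    normal_separation ((h₁.inter h₂).inter ht) ((h₁.inter h₂).inter ht') hdis
  set A : Set L := K₁ ∪ K₂ with hA
  have hAc : IsClosed A := h₁.union h₂
  have hcA : Cech0 A := s10_cech0_closed A hAc hd hc
  set U : Fin 4 → Set A := ![Subtype.val ⁻¹' K₂ᶜ, Subtype.val ⁻¹' K₁ᶜ, Subtype.val ⁻¹' O,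
    Subtype.val ⁻¹' O'] with hU
  have hU0 : U 0 = Subtype.val ⁻¹' K₂ᶜ := rfl
  have hU1 : U 1 = Subtype.val ⁻¹' K₁ᶜ := rfl
  have hU2 : U 2 = Subtype.val ⁻¹' O := rfl
  have hU3 : U 3 = Subtype.val ⁻¹' O' := rfl
  have h01 : ∀ x : A, x ∈ U 0 → x ∈ U 1 → False := by
    intro x hx0 hx1
    rw [hU0] at hx0; rw [hU1] at hx1
    rcases x.2 with h | h
    · exact hx1 h
    · exact hx0 h
  have h23 : ∀ x : A, x ∈ U 2 → x ∈ U 3 → False := by
    intro x hx2 hx3
    rw [hU2] at hx2; rw [hU3] at hx3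
    exact Set.disjoint_left.mp hOO hx2 hx3
  obtain ⟨m, Z, ρ, c, hZ, hZcov, hZU, hZc⟩ := hcA 4 U s10d
    (by
      intro i
      fin_cases i
      · exact h₂.isOpen_compl.preimage continuous_subtype_val
      · exact h₁.isOpen_compl.preimage continuous_subtype_val
      · exact hO.preimage continuous_subtype_val
      · exact hO'.preimage continuous_subtype_val)
    (by
      rw [eq_univ_iff_forall]
      intro x
      rw [mem_iUnion]
      by_cases hx2 : x.1 ∈ K₂
      · by_cases hx1 : x.1 ∈ K₁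
        · rcases hsub ⟨hx1, hx2⟩ with h | h
          · exact ⟨2, hEO ⟨⟨hx1, hx2⟩, h⟩⟩
          · exact ⟨3, hEO' ⟨⟨hx1, hx2⟩, h⟩⟩
        · exact ⟨1, hx1⟩
      · exact ⟨0, hx2⟩)
    (by decide) (by decide)
    (by
      rintro i j k ⟨x, ⟨hxi, hxj⟩, hxk⟩
      rcases s10d_cocycle i j k with h | ⟨h0, h1⟩ | ⟨h2, h3⟩
      · exact h
      · exfalso
        have hx0 : x ∈ U 0 := by
          rcases h0 with rfl | rfl | rfl <;> assumption
        have hx1 : x ∈ U 1 := by
          rcases h1 with rfl | rfl | rfl <;> assumption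
        exact h01 x hx0 hx1
      · exfalso
        have hx2 : x ∈ U 2 := by
          rcases h2 with rfl | rfl | rfl <;> assumption
        have hx3 : x ∈ U 3 := by
          rcases h3 with rfl | rfl | rfl <;> assumption
        exact h23 x hx2 hx3)
  have hind : Topology.IsInducing (Subtype.val : A → L) := Topology.IsInducing.subtypeVal
  have hK₁ : IsPreconnected (Subtype.val ⁻¹' K₁ : Set A) := by
    rw [← hind.isPreconnected_image, Subtype.image_preimage_coe,
      inter_eq_right.mpr subset_union_left]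
    exact c₁
  have hK₂ : IsPreconnected (Subtype.val ⁻¹' K₂ : Set A) := by
    rw [← hind.isPreconnected_image, Subtype.image_preimage_coe,
      inter_eq_right.mpr subset_union_right]
    exact c₂
  have hz : ∀ x y : ZMod 2, x + y = 0 → x = y := by decide
  obtain ⟨κ₁, hκ₁⟩ := s10_label_const Z hZ hZcov c _ hK₁ (by
    intro x hx a b hxa hxb
    have h1 := hZc a b ⟨x, hxa, hxb⟩
    by_contra hne
    have : s10d (ρ a) (ρ b) ≠ 0 := by
      rw [← h1]; exact fun h => hne (hz _ _ h)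
    rcases s10d_one _ _ this with h | h
    · have := hZU a hxa
      rw [h, hU1] at this
      exact this hx
    · have := hZU b hxb
      rw [h, hU1] at this
      exact this hx)
  obtain ⟨κ₂, hκ₂⟩ := s10_label_const Z hZ hZcov (fun a => c a + if ρ a = 3 then 1 else 0) _ hK₂ (by
    intro x hx a b hxa hxb
    have h1 := hZc a b ⟨x, hxa, hxb⟩
    have ha0 : ρ a ≠ 0 := by
      intro h
      have := hZU a hxa
      rw [h, hU0] at this
      exact this hx
    have hb0 : ρ b ≠ 0 := by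
      intro h
      have := hZU b hxb
      rw [h, hU0] at this
      exact this hx
    have h2 := s10d_two (ρ a) (ρ b) ha0 hb0
      (fun h => h23 x (h.1 ▸ hZU a hxa) (h.2 ▸ hZU b hxb))
      (fun h => h23 x (h.2 ▸ hZU b hxb) (h.1 ▸ hZU a hxa))
    apply hz
    rw [← h1] at h2
    have h4 : ∀ p q r s : ZMod 2, p + q + r + s = 0 → (p + r) + (q + s) = 0 := by decide
    exact h4 _ _ _ _ h2)
  -- evaluate at `e` and `e'`
  have hρ : ∀ (x : A), x.1 ∈ K₁ → x.1 ∈ K₂ → ∀ a, x ∈ Z a → ρ a = 2 ∨ ρ a = 3 := by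
    intro x hx1 hx2 a hxa
    have hmem := hZU a hxa
    have h4 : ∀ i : Fin 4, i = 0 ∨ i = 1 ∨ i = 2 ∨ i = 3 := by decide
    rcases h4 (ρ a) with h | h | h | h
    · rw [h, hU0] at hmem; exact absurd hx2 hmem
    · rw [h, hU1] at hmem; exact absurd hx1 hmem
    · left; exact h
    · right; exact h
  have hex : ∀ x : A, ∃ a, x ∈ Z a := by
    intro x
    have : x ∈ ⋃ a, Z a := by rw [hZcov]; trivial
    exact mem_iUnion.mp this
  set ε : A := ⟨e, Or.inl he.1⟩ with hε
  set ε' : A := ⟨e', Or.inl he'.1⟩ with hε'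
  obtain ⟨a, ha⟩ := hex ε
  obtain ⟨b, hb⟩ := hex ε'
  have hρa : ρ a = 2 := by
    rcases hρ ε he.1 he.2 a ha with h | h
    · exact h
    · exfalso
      have h3 := hZU a ha
      rw [h] at h3
      exact h23 ε (hEO ⟨he, het⟩) h3
  have hρb : ρ b = 3 := by
    rcases hρ ε' he'.1 he'.2 b hb with h | h
    · exfalso
      have h3 := hZU b hb
      rw [h] at h3
      exact h23 ε' h3 (hEO' ⟨he', het'⟩)
    · exact h
  have e1 := hκ₁ ε he.1 a ha
  have e2 := hκ₂ ε he.2 a ha
  have e3 := hκ₁ ε' he'.1 b hb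
  have e4 := hκ₂ ε' he'.2 b hb
  simp only [hρa, hρb] at e2 e4
  rw [e1] at e2
  rw [e3] at e4
  have : ∀ x y : ZMod 2, x + (if (2 : Fin 4) = 3 then 1 else 0) = y →
      x + (if (3 : Fin 4) = 3 then 1 else 0) = y → False := by decide
  exact this _ _ e2 e4

/-- the intersection of all closed connected sets containing `a` and `b` is connected -/
theorem s10_core_preconnected {L : Type} [TopologicalSpace L] [CompactSpace L] [T2Space L]
    [PreconnectedSpace L] (hd : Dim1 L) (hc : Cech0 L) (a b : L) :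
    IsPreconnected (⋂ K : {K : Set L // IsClosed K ∧ IsPreconnected K ∧ a ∈ K ∧ b ∈ K}, K.1) := by
  classical
  set ι := {K : Set L // IsClosed K ∧ IsPreconnected K ∧ a ∈ K ∧ b ∈ K} with hι
  have i0 : Nonempty ι := ⟨⟨univ, isClosed_univ, isPreconnected_univ, trivial, trivial⟩⟩
  have hdir : Directed (· ⊇ ·) (fun K : ι => K.1) := by
    intro K₁ K₂
    exact ⟨⟨K₁.1 ∩ K₂.1, K₁.2.1.inter K₂.2.1,
      s10_inter_preconnected hd hc K₁.2.1 K₂.2.1 K₁.2.2.1 K₂.2.2.1,
      ⟨K₁.2.2.2.1, K₂.2.2.2.1⟩, ⟨K₁.2.2.2.2, K₂.2.2.2.2⟩⟩, inter_subset_left, inter_subset_right⟩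
  have hIc : IsClosed (⋂ K : ι, K.1) := isClosed_iInter fun K => K.2.1
  rw [isPreconnected_closed_iff]
  intro t t' ht ht' hsub ⟨e, he, het⟩ ⟨e', he', het'⟩
  by_contra hemp
  have hdis : Disjoint ((⋂ K : ι, K.1) ∩ t) ((⋂ K : ι, K.1) ∩ t') := by
    rw [Set.disjoint_left]
    intro x hx hx'
    exact hemp ⟨x, hx.1, hx.2, hx'.2⟩
  obtain ⟨O, O', hO, hO', hEO, hEO', hOO⟩ :=
    normal_separation (hIc.inter ht) (hIc.inter ht') hdis
  obtain ⟨K, hK⟩ := exists_subset_nhds_of_compactSpace hdir (fun K => K.2.1) (U := O ∪ O')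
    (by
      intro x hx
      rcases hsub hx with h | h
      · exact mem_of_superset (hO.mem_nhds (hEO ⟨hx, h⟩)) subset_union_left
      · exact mem_of_superset (hO'.mem_nhds (hEO' ⟨hx, h⟩)) subset_union_right)
  have hIK : (⋂ K : ι, K.1) ⊆ K.1 := iInter_subset _ K
  rcases (isPreconnected_iff_subset_of_disjoint.mp K.2.2.1) O O' hO hO' hK
    (by rw [hOO.inter_eq, inter_empty]) with h | h
  · exact Set.disjoint_left.mp hOO (h (hIK he')) (hEO' ⟨he', het'⟩)
  · exact Set.disjoint_left.mp hOO (hEO ⟨he, het⟩) (h (hIK he))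

/-- **Lemma 10.3.** -/
theorem s10_exists_cut {L : Type} [TopologicalSpace L] [CompactSpace L] [T2Space L]
    [PreconnectedSpace L] [LocallyConnectedSpace L] [Nontrivial L] (hd : Dim1 L) (hc : Cech0 L) :
    ∃ p : L, ¬ IsPreconnected ({p}ᶜ : Set L) := by
  classical
  obtain ⟨a, b, hab⟩ := exists_pair_ne L
  set ι := {K : Set L // IsClosed K ∧ IsPreconnected K ∧ a ∈ K ∧ b ∈ K} with hι
  have hI := s10_core_preconnected hd hc a b
  have haI : a ∈ ⋂ K : ι, K.1 := mem_iInter.mpr fun K => K.2.2.2.1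
  have hbI : b ∈ ⋂ K : ι, K.1 := mem_iInter.mpr fun K => K.2.2.2.2
  have hinf : (⋂ K : ι, K.1).Infinite := hI.infinite_of_nontrivial ⟨a, haI, b, hbI, hab⟩
  obtain ⟨p, hpI, hpab⟩ := (hinf.sdiff (Set.toFinite ({a, b} : Set L))).nonempty
  have hpa : a ≠ p := fun h => hpab (by rw [← h]; exact mem_insert _ _)
  have hpb : b ≠ p := fun h => hpab (by rw [← h]; exact mem_insert_of_mem _ rfl)
  refine ⟨p, fun hp => ?_⟩
  set W : Set L := {x | ∃ K : Set L, IsClosed K ∧ IsPreconnected K ∧ a ∈ K ∧ x ∈ K ∧ p ∉ K} with hW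
  -- small connected neighbourhoods avoiding `p`
  have hloc : ∀ x : L, x ≠ p → ∃ U : Set L, IsOpen U ∧ x ∈ U ∧ IsPreconnected (closure U) ∧
      p ∉ closure U := by
    intro x hx
    obtain ⟨N, hN, hNc, hNp⟩ := exists_mem_nhds_isClosed_subset
      (isOpen_compl_singleton.mem_nhds (show x ∈ ({p}ᶜ : Set L) from hx))
    obtain ⟨U, ⟨hUo, hxU, hUc⟩, hUN⟩ :=
      (LocallyConnectedSpace.open_connected_basis x).mem_iff.mp hN
    refine ⟨U, hUo, hxU, hUc.isPreconnected.closure, fun h => ?_⟩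
    exact hNp (closure_minimal hUN hNc h) rfl
  have hWo : IsOpen W := by
    rw [isOpen_iff_mem_nhds]
    rintro x ⟨K, hKc, hKp, haK, hxK, hpK⟩
    have hx : x ≠ p := fun h => hpK (h ▸ hxK)
    obtain ⟨U, hUo, hxU, hUc, hpU⟩ := hloc x hx
    refine mem_of_superset (hUo.mem_nhds hxU) fun y hy => ?_
    exact ⟨K ∪ closure U, hKc.union isClosed_closure,
      hKp.union x hxK (subset_closure hxU) hUc, Or.inl haK, Or.inr (subset_closure hy),
      fun h => h.elim hpK hpU⟩
  set W' : Set L := {x | x ≠ p ∧ x ∉ W} with hW'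
  have hW'o : IsOpen W' := by
    rw [isOpen_iff_mem_nhds]
    rintro x ⟨hx, hxW⟩
    obtain ⟨U, hUo, hxU, hUc, hpU⟩ := hloc x hx
    refine mem_of_superset (hUo.mem_nhds hxU) fun y hy => ?_
    refine ⟨fun h => hpU (h ▸ subset_closure hy), ?_⟩
    rintro ⟨K, hKc, hKp, haK, hyK, hpK⟩
    exact hxW ⟨K ∪ closure U, hKc.union isClosed_closure,
      hKp.union y hyK (subset_closure hy) hUc, Or.inl haK, Or.inr (subset_closure hxU),
      fun h => h.elim hpK hpU⟩
  have haW : a ∈ W := ⟨{a}, isClosed_singleton, isPreconnected_singleton, rfl, rfl,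
    fun h => hpa h.symm⟩
  rcases (isPreconnected_iff_subset_of_disjoint.mp hp) W W' hWo hW'o
    (by
      intro x hx
      by_cases h : x ∈ W
      · exact Or.inl h
      · exact Or.inr ⟨hx, h⟩)
    (by
      rw [eq_empty_iff_forall_notMem]
      rintro x ⟨_, hx, hx'⟩
      exact hx'.2 hx) with h | h
  · obtain ⟨K, hKc, hKp, haK, hbK, hpK⟩ := h (show b ∈ ({p}ᶜ : Set L) from hpb)
    exact hpK (mem_iInter.mp hpI ⟨K, hKc, hKp, haK, hbK⟩)
  · exact (h (show a ∈ ({p}ᶜ : Set L) from hpa)).2 haW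

/-- **Sec 10**: a `PS` whose continuum is locally connected does not exist. -/
theorem s10_false (P : PS) (hlc : LocallyConnectedSpace P.L) : False := by
  classical
  have hLc : IsClosed P.L := by
    have : IsOpen (range P.ι) := by
      rw [← iUnion_singleton_eq_range]
      exact isOpen_iUnion fun g => P.ι_isolated g
    exact this.isClosed_compl
  have i1 : CompactSpace P.L := isCompact_iff_compactSpace.mp hLc.isCompact
  have i2 : PreconnectedSpace P.L :=
    Subtype.preconnectedSpace P.L_conn.isPreconnected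
  have i3 : Nontrivial P.L := by
    obtain ⟨x, hx, y, hy, hxy⟩ := P.L_nontriv
    exact ⟨⟨⟨x, hx⟩, ⟨y, hy⟩, fun h => hxy (congrArg Subtype.val h)⟩⟩
  have h5 : Dim1 P.L := P.dim1
  have h6 : Cech0 P.L := P.cech0
  obtain ⟨p, hp⟩ := s10_exists_cut h5 h6
  apply hp
  have hind : Topology.IsInducing (Subtype.val : P.L → P.Y) := Topology.IsInducing.subtypeVal
  rw [← hind.isPreconnected_image]
  have : (Subtype.val '' ({p}ᶜ : Set P.L)) = P.L \ {p.1} := by
    ext x
    constructor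
    · rintro ⟨y, hy, rfl⟩
      exact ⟨y.2, fun h => hy (Subtype.ext h)⟩
    · rintro ⟨hx, hxp⟩
      exact ⟨⟨x, hx⟩, fun h => hxp (congrArg Subtype.val h), rfl⟩
  rw [this]
  exact P.L_nocut p.1 p.2

end Claimed.Agent.R309
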